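import Vale.Agent.P216.H787.Cls
import Vale.Agent.P216.AS.Taut

/-!
# P216-B, row R3: exactness of list cocycles extends to small neighbourhoods
-/

set_option linter.all false

open Set Finsupp

namespace Vale.Agent.P216.H921B

open Vale.Agent.P216.Sl Vale.Agent.P216.PS
open Vale.Agent.P216.AS (sub_d_prism mixed_dist mixed_mem)

variable {k : Type} [Field k] {E : Type} [PseudoMetricSpace E]

open Classical in
/-- a choice of near points -/
noncomputable def nr (Z : Set E) (δ : ℝ) (x : E) : E :=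
  if h : ∃ z ∈ Z, dist x z < δ then h.choose else x

theorem nr_spec {Z : Set E} {δ : ℝ} {x : E} (h : ∃ z ∈ Z, dist x z < δ) :
    nr Z δ x ∈ Z ∧ dist x (nr Z δ x) < δ := by
  rw [nr, dif_pos h]
  exact h.choose_spec

theorem dl_add' (f g : List E → k) (l : List E) :
    dl (fun l => f l + g l) l = dl f l + dl g l := by
  simp only [dl]
  exact ev_add_fun f g _

/-- **quantitative form**: if `f` is a cocycle on the `ε₁`-small lists of `X` and `f = dl g` on the
`ε₂`-small lists of `Z ⊆ X`, then `f` is a coboundary on the `δ`-small lists of the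
`δ`-neighbourhood of `Z` in `X`, `3 δ ≤ ε₁, ε₂`. -/
theorem exact_near {X Z : Set E} {n : ℕ} {f g : List E → k} {ε₁ ε₂ δ : ℝ}
    (hf : ∀ l, l.length = n + 2 → SmL X ε₁ l → dl f l = 0) (hZX : Z ⊆ X)
    (hg0 : n = 0 → ∀ l, g l = 0)
    (hg : ∀ l, l.length = n + 1 → SmL Z ε₂ l → f l = dl g l)
    (h1 : 3 * δ ≤ ε₁) (h2 : 3 * δ ≤ ε₂) :
    ∃ G : List E → k, (n = 0 → ∀ l, G l = 0) ∧
      ∀ l, l.length = n + 1 → SmL {x | x ∈ X ∧ ∃ z ∈ Z, dist x z < δ} δ l → f l = dl G l := by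
  set ν := nr Z δ with hν
  set P : (Fin n → E) → k := P265.AS.prism ν id (ofL (n + 1) f) with hP
  refine ⟨fun l => toL P l + g (l.map ν), ?_, ?_⟩
  · rintro rfl l
    have e1 : P = 0 := rfl
    show toL P l + g (List.map ν l) = 0
    rw [hg0 rfl, add_zero, e1]
    unfold toL
    split_ifs <;> rfl
  · intro l hl hs
    obtain ⟨x, rfl⟩ := exists_ofFn hl
    have hsx := smL_ofFn.1 hs
    have hx1 : ∀ i, x i ∈ X := fun i => (hsx.1 i).1
    have hνx : ∀ i, ν (x i) ∈ Z ∧ dist (x i) (ν (x i)) < δ := fun i => nr_spec (hsx.1 i).2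
    have hδ : 0 < δ := dist_nonneg.trans_lt (hνx 0).2
    rw [dl_add', ← toL_d, toL_ofFn, dl_map (fun l => g l) ν]
    have h3 := congrFun (sub_d_prism ν (ofL (n + 1) f)) x
    rw [Pi.sub_apply, Pi.add_apply, P265.AS.pb_apply] at h3
    have h4 : P265.AS.prism ν id (P265.AS.d (ofL (n + 1) f)) x = 0 := by
      refine P265.AS.prism_eq_zero _ _ fun y hy => ?_
      rw [dl_ofL]
      refine hf _ List.length_ofFn (smL_ofFn.2 ⟨mixed_mem hx1 (fun i => hZX (hνx i).1) hy,
        fun i j => ?_⟩)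
      have := mixed_dist hδ.le hsx.2 (fun i => (hνx i).2.le) hy i j
      linarith
    have h5 : ofL (n + 1) f (ν ∘ x) = dl g ((List.ofFn x).map ν) := by
      rw [List.map_ofFn]
      refine hg _ List.length_ofFn (smL_ofFn.2 ⟨fun i => (hνx i).1, fun i j => ?_⟩)
      have h6 := dist_triangle4 (ν (x i)) (x i) (x j) (ν (x j))
      rw [dist_comm (ν (x i)) (x i)] at h6
      have := hsx.2 i j
      have := (hνx i).2
      have := (hνx j).2
      change dist (ν (x i)) (ν (x j)) < ε₂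
      linarith
    rw [h4, h5, add_zero] at h3
    have h7 : ofL (n + 1) f x = f (List.ofFn x) := rfl
    rw [h7] at h3
    linear_combination h3

/-- **exactness extends to a neighbourhood** -/
theorem exL_near {X Z : Set E} {n : ℕ} {f : List E → k} (hf : CocL X n f) (hZX : Z ⊆ X)
    (hZ : ExL Z n f) :
    ∃ δ > 0, ExL {x | x ∈ X ∧ ∃ z ∈ Z, dist x z < δ} n f := by
  obtain ⟨ε₁, hε₁, h1⟩ := hf
  obtain ⟨g, hg0, ε₂, hε₂, h2⟩ := hZ
  have hm := lt_min hε₁ hε₂
  obtain ⟨G, hG0, hG⟩ := exact_near (δ := min ε₁ ε₂ / 3) h1 hZX hg0 h2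
    (by linarith [min_le_left ε₁ ε₂]) (by linarith [min_le_right ε₁ ε₂])
  exact ⟨min ε₁ ε₂ / 3, by positivity, G, hG0, min ε₁ ε₂ / 3, by positivity, hG⟩

end Vale.Agent.P216.H921B
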