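import Vale.Agent.P216.H921B.Comp
import Vale.Agent.P216.H921B.Near

/-!
# P216-B, row R3: tightness
-/

set_option linter.all false

open Set

namespace Vale.Agent.P216.H921B

open Vale.Agent.P216.L250 (LM XE fn)
open Vale.Agent.P216.Sl

/-- **R3** (tightness). -/
theorem r3Goal : H971B.R3Goal := by
  intro M _ _ ρ hρ hU k _ c a T q f ha haT hf hZ
  have hZX : H971B.Ecl M a c ⊆ H971B.Ecl M T c := fun x hx => ⟨L250.XE_mono ha haT.le hx.1, hx.2⟩
  obtain ⟨δ, hδ, h1⟩ := exL_near hf hZX hZ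
  obtain ⟨ε, hε, h2⟩ := exists_near hU hρ ha c hδ
  refine ⟨min (a + ε) T, lt_min (by linarith) haT, min_le_right _ _, h1.mono fun x hx => ?_⟩
  have h3 : (0 : ℝ) ≤ min (a + ε) T := le_min (by linarith) (by linarith)
  exact ⟨⟨L250.XE_mono h3 (min_le_right _ _) hx.1, hx.2⟩,
    h2 x ⟨L250.XE_mono h3 (min_le_left _ _) hx.1, hx.2⟩⟩

end Vale.Agent.P216.H921B

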