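import Vale.Agent.P216.LS.Desc
import Vale.Agent.P216.H971B.Props

/-!
# P216-B, row R3: components of the sublevels of the loop space

* `joined_of_dist_lt` : two loops at distance `< ρ` are joined in `LM M`;
* `isCompact_comp` : the part of `XE M T` in one component of `LM M` is compact;
* `exists_near` : the sublevels of one component shrink to the lowest one.
-/

set_option linter.all false

open Set Filter Topology

namespace Vale.Agent.P216.H921B

open Vale.Agent.P216.L250 (LM XE fn isCompact_XE isClosed_XE mem_XE)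
open Vale.Agent.P216.LS (UniqSeg)
open Vale.Agent.P216.H971B (Ecl)

variable {M : Type} [MetricSpace M]

/-- **Close loops are joined.** -/
theorem joined_of_dist_lt [CompactSpace M] {ρ : ℝ} (h : UniqSeg M ρ) {g g' : LM M}
    (hd : dist g g' < ρ) : Joined g g' := by
  have hdx : ∀ x, dist (g x) (g' x) < ρ := fun x =>
    (ContinuousMap.dist_apply_le_dist x).trans_lt hd
  have hc : Continuous fun p : unitInterval × AddCircle (1 : ℝ) =>
      LS.seg (g p.2) (g' p.2) (p.1 : ℝ) := by
    rw [← continuousOn_univ]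
    refine LS.ContinuousOn.seg h (f := fun p : unitInterval × AddCircle (1 : ℝ) => g p.2)
      (g := fun p : unitInterval × AddCircle (1 : ℝ) => g' p.2)
      (τ := fun p : unitInterval × AddCircle (1 : ℝ) => (p.1 : ℝ)) ?_ ?_ ?_ ?_ ?_
    · exact (g.continuous.comp continuous_snd).continuousOn
    · exact (g'.continuous.comp continuous_snd).continuousOn
    · exact (continuous_subtype_val.comp continuous_fst).continuousOn
    · exact fun p _ => hdx p.2
    · exact fun p _ => p.1.2
  let F : C(unitInterval × AddCircle (1 : ℝ), M) := ⟨_, hc⟩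
  refine ⟨⟨F.curry, ?_, ?_⟩⟩
  · ext x
    have h1 := LS.dist_left_seg h (hdx x) (t := 0) (by simp)
    rw [zero_mul, dist_eq_zero] at h1
    show LS.seg (g x) (g' x) ((0 : unitInterval) : ℝ) = g x
    rw [Set.Icc.coe_zero]
    exact h1.symm
  · ext x
    have h1 := LS.dist_seg_right h (hdx x) (t := 1) (by simp)
    rw [sub_self, zero_mul, dist_eq_zero] at h1
    show LS.seg (g x) (g' x) ((1 : unitInterval) : ℝ) = g' x
    rw [Set.Icc.coe_one]
    exact h1

/-- The component of `c` is closed. -/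
theorem isClosed_joined [CompactSpace M] {ρ : ℝ} (h : UniqSeg M ρ) (hρ : 0 < ρ) (c : LM M) :
    IsClosed {x : LM M | Joined x c} := by
  rw [← isOpen_compl_iff, Metric.isOpen_iff]
  intro x hx
  refine ⟨ρ, hρ, fun y hy hyc => hx ?_⟩
  have h1 : Joined x y := joined_of_dist_lt h (by rw [dist_comm]; exact Metric.mem_ball.1 hy)
  exact h1.trans hyc

/-- **compactness** -/
theorem isCompact_Ecl [CompactSpace M] {ρ : ℝ} (h : UniqSeg M ρ) (hρ : 0 < ρ) {T : ℝ}
    (hT : 0 ≤ T) (c : LM M) : IsCompact (Ecl M T c) :=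
  (isCompact_XE hT).inter_right (isClosed_joined h hρ c)

/-- **the sublevels shrink** -/
theorem exists_near [CompactSpace M] {ρ : ℝ} (h : UniqSeg M ρ) (hρ : 0 < ρ) {μ : ℝ}
    (hμ : 0 ≤ μ) (c : LM M) {δ : ℝ} (hδ : 0 < δ) :
    ∃ ε > 0, ∀ x ∈ Ecl M (μ + ε) c, ∃ z ∈ Ecl M μ c, dist x z < δ := by
  by_contra hcon
  push Not at hcon
  have h1 : ∀ n : ℕ, ∃ x ∈ Ecl M (μ + 1 / ((n : ℝ) + 1)) c, ∀ z ∈ Ecl M μ c, δ ≤ dist x z :=
    fun n => hcon _ (by positivity)
  choose x hx hxz using h1
  have hK := isCompact_Ecl h hρ (T := μ + 1) (by linarith) c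
  have hle : ∀ n : ℕ, 1 / ((n : ℝ) + 1) ≤ 1 := fun n => by
    rw [div_le_one (by positivity)]
    have : (0 : ℝ) ≤ n := n.cast_nonneg
    linarith
  have hxK : ∀ n, x n ∈ Ecl M (μ + 1) c := fun n =>
    ⟨L250.XE_mono (by positivity) (by linarith [hle n]) (hx n).1, (hx n).2⟩
  obtain ⟨y, hy, φ, hφ, hlim⟩ := hK.tendsto_subseq hxK
  have hyE : y ∈ Ecl M μ c := by
    refine ⟨?_, hy.2⟩
    -- the energy of the limit
    have h2 : ∀ ε > 0, y ∈ XE M (μ + ε) := by
      intro ε hε
      refine (isClosed_XE (s := μ + ε)).mem_of_tendsto hlim ?_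
      obtain ⟨N, hN⟩ := exists_nat_one_div_lt hε
      refine eventually_atTop.2 ⟨N, fun n hn => ?_⟩
      refine L250.XE_mono (by positivity) ?_ (hx (φ n)).1
      have h3 : (N : ℝ) ≤ φ n := by exact_mod_cast hn.trans (hφ.id_le n)
      have h4 : 1 / ((φ n : ℝ) + 1) ≤ 1 / ((N : ℝ) + 1) :=
        one_div_le_one_div_of_le (by positivity) (by linarith)
      linarith
    exact LS.mem_XE_of_forall hμ h2
  have h5 : Tendsto (fun n => dist (x (φ n)) y) atTop (𝓝 0) :=
    tendsto_iff_dist_tendsto_zero.1 hlim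
  obtain ⟨n, hn⟩ := (h5.eventually (gt_mem_nhds hδ)).exists
  exact absurd hn (not_lt.2 (hxz (φ n) y hyE))

end Vale.Agent.P216.H921B
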